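import Mathlib

set_option autoImplicit false

/-! Columns and words: statements for the tall part of the power map (`λ₁ ≤ 2b - O(log b)`). -/

namespace Vale.Agent.P181.WC

open Finset

variable {P : Type} [Fintype P] [DecidableEq P]

/-- A form on words in the letters `0, 1, 2, …` (positions `P`) satisfies the highest weight
conditions with weight `μ` on the active positions `S`. -/
def HWw (S : Finset P) (μ : ℕ → ℕ) (f : (P → ℕ) → ℂ) : Prop :=
  (∀ m k : ℕ, m < k → ∀ w : P → ℕ,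
    ∑ x ∈ S.filter (fun x => w x = m), f (Function.update w x k) = 0) ∧
  (∀ w : P → ℕ, f w ≠ 0 → ∀ m : ℕ, (S.filter (fun x => w x = m)).card = μ m)

/-- Contraction with one column: the letters `0, …, ℓ - 1` are put on the positions
`p 0, …, p (ℓ - 1)` in all ways, with signs. -/
noncomputable def c1 (f : (P → ℕ) → ℂ) (ℓ : ℕ) (p : Fin ℓ → P) (w : P → ℕ) : ℂ :=
  ∑ σ : Equiv.Perm (Fin ℓ), ((Equiv.Perm.sign σ : ℤ) : ℂ) *
    f (Function.extend p (fun i => ((σ i : Fin ℓ) : ℕ)) w)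

/-- Contraction with a list of columns. -/
noncomputable def con : ((P → ℕ) → ℂ) → List (Σ ℓ : ℕ, (Fin ℓ → P)) → (P → ℕ) → ℂ
  | f, [] => f
  | f, C :: t => con (c1 f C.1 C.2) t

/-- The columns of the list are injective, disjoint, and cover `S`. -/
def Good : Finset P → List (Σ ℓ : ℕ, (Fin ℓ → P)) → Prop
  | S, [] => S = ∅
  | S, C :: t => Function.Injective C.2 ∧ (∀ i, C.2 i ∈ S) ∧
      Good (S.filter (fun x => ∀ i, C.2 i ≠ x)) t

/-- [C1] Capelli step for one column. -/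
def Cap1Stmt : Prop := ∀ (P : Type) [Fintype P] [DecidableEq P] (S : Finset P) (μ : ℕ → ℕ)
  (f : (P → ℕ) → ℂ), HWw S μ f → ∀ ℓ : ℕ, (∀ m, m < ℓ → 0 < μ m) →
  (∀ p : Fin ℓ → P, Function.Injective p → (∀ i, p i ∈ S) → ∀ w, c1 f ℓ p w = 0) →
  ∀ w, f w = 0

/-- [C2] The contraction with a full column lowers the weight by one. -/
def ContrStmt : Prop := ∀ (P : Type) [Fintype P] [DecidableEq P] (S : Finset P) (μ : ℕ → ℕ)
  (f : (P → ℕ) → ℂ), HWw S μ f → ∀ ℓ : ℕ, (∀ m, ℓ ≤ m → μ m = 0) →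
  ∀ p : Fin ℓ → P, Function.Injective p → (∀ i, p i ∈ S) →
  HWw (S.filter (fun x => ∀ i, p i ≠ x)) (fun m => μ m - (if m < ℓ then 1 else 0)) (c1 f ℓ p)

/-- [C3] A highest weight form killed by all column systems is zero. -/
def ColStmt : Prop := ∀ (P : Type) [Fintype P] [DecidableEq P] (L : ℕ) (S : Finset P) (μ : ℕ → ℕ)
  (f : (P → ℕ) → ℂ), Antitone μ → (∃ N, ∀ m, N ≤ m → μ m = 0) → μ 0 = L → HWw S μ f →
  (∀ C : List (Σ ℓ : ℕ, (Fin ℓ → P)), Good S C → C.length = L → ∀ w, con f C w = 0) →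
  ∀ w, f w = 0

/-- [V] A form invariant under the exchange of two positions of one column is killed. -/
def VanStmt : Prop := ∀ (P : Type) [Fintype P] [DecidableEq P] (S : Finset P)
  (f : (P → ℕ) → ℂ) (C : List (Σ ℓ : ℕ, (Fin ℓ → P))) (x y : P), Good S C → x ≠ y →
  (∀ w : P → ℕ, f (w ∘ Equiv.swap x y) = f w) →
  (∃ c ∈ C, (∃ i, c.2 i = x) ∧ (∃ j, c.2 j = y)) → ∀ w, con f C w = 0

/-- [I] Isolation: if any two small blocks of different slots meet a common column, the column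
system kills every form in the kernel of the power map. -/
def IsoStmt : Prop := ∀ (P B A I : Type) [Fintype P] [DecidableEq P] [Fintype B] [DecidableEq B]
  (slot : P → I) (sB : B → I) (β : P ≃ B × A) (f : (P → ℕ) → ℂ)
  (C : List (Σ ℓ : ℕ, (Fin ℓ → P))), Good univ C → (∀ p, slot p = sB (β p).1) →
  (∀ ρ : Equiv.Perm P, (∀ p p', slot p = slot p' → slot (ρ p) = slot (ρ p')) →
    ∀ w : P → ℕ, f (w ∘ ρ) = f w) →
  (∀ w : P → ℕ, ∑ π : Equiv.Perm B,
    f (w ∘ ((β.trans (Equiv.prodCongr π (Equiv.refl A))).trans β.symm)) = 0) →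
  (∀ t t' : B, sB t ≠ sB t' → ∃ c ∈ C, ∃ i j, (β (c.2 i)).1 = t ∧ (β (c.2 j)).1 = t') →
  ∀ w, con f C w = 0

/-- [S1] Random columns and colours. -/
def RandStmt : Prop := ∀ (a q k : ℕ) (K : Fin a → Finset (Fin a × Fin (2 * q))), 1 ≤ q →
  (∀ i j, i ≠ j → k ≤ (K i ∩ K j).card) → 4 * (q : ℝ) ^ 3 * Real.log (a * q) < k →
  ∃ (v : Fin a → Fin (2 * q)) (g : Fin a → Fin a → Fin q), ∀ i j : Fin a, i ≠ j →
    ∀ s t : Fin q, ∃ u : Fin a, (u, v u) ∈ K i ∧ (u, v u) ∈ K j ∧ g u i = s ∧ g u j = t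

/-- [S2] The splitting of the slots. -/
def SplitStmt : Prop := ∀ (a q k L : ℕ) (cidx : Fin a × Fin (q * a) → Fin L), 1 ≤ q →
  (∀ i, Function.Injective (fun j => cidx (i, j))) → L + k ≤ 2 * (q * a) →
  4 * (q : ℝ) ^ 3 * Real.log (a * q) < k →
  ∃ e : Fin a → (Fin (q * a) ≃ Fin q × Fin a), ∀ i i' : Fin a, i ≠ i' → ∀ s s' : Fin q,
    ∃ j j', cidx (i, j) = cidx (i', j') ∧ (e i j).1 = s ∧ (e i' j').1 = s'

end Vale.Agent.P181.WC
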