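import Vale.Agent.P181.WC.Defs
import Vale.Agent.P181.H280.Final

set_option autoImplicit false

/-! The words of a form, and the final statement. -/

namespace Vale.Agent.P181.WC

open Finset Vale.Agent.P181.H280

/-- The variable with index `m`, zero if there is none. -/
noncomputable def XN (n m : ℕ) : MvPolynomial (Fin n) ℂ :=
  if h : m < n then MvPolynomial.X ⟨m, h⟩ else 0

/-- The values of the form on monomials. -/
noncomputable def wf {a b n : ℕ} (l : (Fin a → Fin b → (Fin n → ℂ)) →₀ ℂ)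
    (w : Fin a × Fin b → ℕ) : ℂ := formOf l (fun i => ∏ j, XN n (w (i, j)))

/-- The standard cutting of the rows into small blocks. -/
def beta0 (a q : ℕ) : Fin a × Fin (q * a) ≃ Fin (q * a) × Fin a :=
  (blockEquiv a q).trans (Equiv.prodComm _ _)

/-- [W1] Highest weight vectors give highest weight words. -/
def W1Stmt : Prop := ∀ (a b n : ℕ) (lam : Fin n → ℕ) (l : (Fin a → Fin b → (Fin n → ℂ)) →₀ ℂ),
  elOf l ∈ hwSpace lam (plethAct a b n) →
  HWw univ (fun m => if h : m < n then lam ⟨m, h⟩ else 0) (wf l)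

/-- [W2] Invariance under the wreath product. -/
def W2Stmt : Prop := ∀ (a b n : ℕ) (l : (Fin a → Fin b → (Fin n → ℂ)) →₀ ℂ)
  (ρ : Equiv.Perm (Fin a × Fin b)), (∀ p p', p.1 = p'.1 → (ρ p).1 = (ρ p').1) →
  ∀ w : Fin a × Fin b → ℕ, wf l (w ∘ ρ) = wf l w

/-- [W3] The kernel of the power map in words. -/
def W3Stmt : Prop := ∀ (a q n : ℕ) (l : (Fin a → Fin (q * a) → (Fin n → ℂ)) →₀ ℂ),
  powMap a q (Fin n → ℂ) (elOf l) = 0 → ∀ w : Fin a × Fin (q * a) → ℕ,
  ∑ π : Equiv.Perm (Fin (q * a)), wf l (w ∘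
    (((beta0 a q).trans (Equiv.prodCongr π (Equiv.refl (Fin a)))).trans (beta0 a q).symm)) = 0

/-- [W4] The words determine the vector. -/
def W4Stmt : Prop := ∀ (a b n : ℕ) (l : (Fin a → Fin b → (Fin n → ℂ)) →₀ ℂ),
  (∀ w, wf l w = 0) → elOf l = 0

/-- [F] The power map is injective on highest weight vectors with `λ₁ ≤ 2qa - k`. -/
def FinStmt : Prop := ∀ (a q n k : ℕ) (lam : Fin n → ℕ), 1 ≤ q → Antitone lam →
  (∀ i, lam i + k ≤ 2 * (q * a)) → 4 * (q : ℝ) ^ 3 * Real.log (a * q) < k →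
  ∀ x ∈ hwSpace lam (plethAct a (q * a) n), powMap a q (Fin n → ℂ) x = 0 → x = 0

end Vale.Agent.P181.WC
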